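import Vale.Agent.P237.Full.Data.Inward
import Vale.Agent.P237.Full.Defs
import Vale.Agent.P237.Full.Moment

/-!
P237: the averaged Fisher datum at the John contacts, in test-function form.
-/

namespace Vale.Agent.P237.Full

open Vale.Agent.P084 MeasureTheory Set Module
open scoped RealInnerProductSpace

/-- Averaged over the John contacts, the Fisher functional of the sections is at most `n V`, for
any test functions `z i` of class `C¹`. -/
theorem fisher_datum_set {n N : ℕ} {K : Set (Euc n)} {c : Fin N → ℝ} {u : Fin N → Euc n}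
    (h : InJohn K c u) {z : Fin N → ℝ → ℝ} (hz : ∀ i, ContDiff ℝ 1 (z i)) :
    ∑ i, c i * ∫ x in K, (2 * deriv (z i) ⟪u i, x⟫ - n * z i ⟪u i, x⟫ ^ 2 -
        2 * ⟪u i, x⟫ * z i ⟪u i, x⟫ * deriv (z i) ⟪u i, x⟫) ≤ n * (volume K).toReal := by
  obtain ⟨⟨cvK, cK, hint⟩, hsym, hball, hc, hu, hcn, hiso, hslab⟩ := h
  set S : Euc n → ℝ := fun x => ∑ i, c i * z i ⟪u i, x⟫ ^ 2 with hS
  set Y : Euc n → Euc n := fun x =>
    (∑ i, (2 * c i * z i ⟪u i, x⟫) • u i) - (S x + 1) • x with hY
  have hzu : ∀ i, ContDiff ℝ 1 fun x : Euc n => z i ⟪u i, x⟫ := fun i =>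
    (hz i).comp (innerSL ℝ (u i)).contDiff
  have hSd : ContDiff ℝ 1 S := ContDiff.sum fun i _ => contDiff_const.mul ((hzu i).pow 2)
  have hYd : ContDiff ℝ 1 Y :=
    (ContDiff.sum fun i _ => (contDiff_const.mul (hzu i)).smul contDiff_const).sub
      ((hSd.add contDiff_const).smul contDiff_id)
  obtain ⟨C, hC⟩ := cK.exists_bound_of_continuousOn hSd.continuous.continuousOn
  have hS0 : ∀ x, 0 ≤ S x := fun x =>
    Finset.sum_nonneg fun i _ => mul_nonneg (hc i) (sq_nonneg _)
  -- short steps stay in the body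
  have hin : ∀ ε ∈ Ioo (0 : ℝ) (1 / (|C| + 1)), ∀ x ∈ K, x + ε • Y x ∈ K := by
    intro ε hε x hx
    by_contra hout
    obtain ⟨f, r, hfK, hfx⟩ := geometric_hahn_banach_closed_point cvK cK.isClosed hout
    set ν := (InnerProductSpace.toDual ℝ (Euc n)).symm f with hν
    have hf : ∀ y, f y = ⟪ν, y⟫ := fun y => by rw [hν, InnerProductSpace.toDual_symm_apply]
    have hb : ‖ν‖ ≤ r := by
      rcases eq_or_ne ν 0 with h0 | h0
      · have := hfK x hx
        rw [hf, h0, inner_zero_left] at this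
        simp [h0, this.le]
      · have hmem : ‖ν‖⁻¹ • ν ∈ K := hball (by
          simp [norm_smul, inv_mul_cancel₀ (norm_ne_zero_iff.2 h0)])
        have := hfK _ hmem
        rw [hf, real_inner_smul_right, real_inner_self_eq_norm_sq, sq, ← mul_assoc,
          inv_mul_cancel₀ (norm_ne_zero_iff.2 h0), one_mul] at this
        exact this.le
    have hsum : ∑ i, c i * ⟪u i, ν⟫ ^ 2 = ‖ν‖ ^ 2 := by
      conv_rhs => rw [← real_inner_self_eq_norm_sq]; arg 2; rw [← hiso ν]
      rw [sum_inner]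
      refine Finset.sum_congr rfl fun i _ => ?_
      rw [real_inner_smul_left]
      ring
    have hYν : ⟪ν, Y x⟫ ≤ (S x + 1) * (r - ⟪ν, x⟫) := by
      have h2 : ∑ i, 2 * c i * z i ⟪u i, x⟫ * ⟪ν, u i⟫ ≤ (S x + 1) * ‖ν‖ := by
        rcases eq_or_ne ν 0 with h0 | h0
        · simp [h0]
        · have hb0 : 0 < ‖ν‖ := norm_pos_iff.2 h0
          calc ∑ i, 2 * c i * z i ⟪u i, x⟫ * ⟪ν, u i⟫
              ≤ ∑ i, (c i * z i ⟪u i, x⟫ ^ 2 * ‖ν‖ + c i * ⟪u i, ν⟫ ^ 2 / ‖ν‖) := by
                refine Finset.sum_le_sum fun i _ => ?_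
                rw [← sub_nonneg]
                have e : c i * z i ⟪u i, x⟫ ^ 2 * ‖ν‖ + c i * ⟪u i, ν⟫ ^ 2 / ‖ν‖ -
                    2 * c i * z i ⟪u i, x⟫ * ⟪ν, u i⟫ =
                    c i * (z i ⟪u i, x⟫ * ‖ν‖ - ⟪u i, ν⟫) ^ 2 / ‖ν‖ := by
                  rw [real_inner_comm ν]
                  field_simp
                  ring
                rw [e]
                exact div_nonneg (mul_nonneg (hc i) (sq_nonneg _)) hb0.le
            _ = (S x + 1) * ‖ν‖ := by
                rw [Finset.sum_add_distrib, ← Finset.sum_mul, ← Finset.sum_div, hsum]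
                field_simp
                ring
      simp only [hY, inner_sub_right, inner_sum, real_inner_smul_right]
      nlinarith [mul_le_mul_of_nonneg_left hb (by linarith [hS0 x] : 0 ≤ S x + 1)]
    have hx' := hfK x hx
    rw [hf] at hx'
    rw [hf, inner_add_right, real_inner_smul_right] at hfx
    have h3 : ε * (S x + 1) ≤ 1 := by
      have h4 := hε.2
      rw [lt_div_iff₀ (by positivity)] at h4
      have h5 : S x ≤ |C| := (le_abs_self _).trans ((hC x hx).trans (le_abs_self C))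
      nlinarith [hε.1]
    nlinarith [mul_le_mul_of_nonneg_left hYν hε.1.le,
      mul_le_mul_of_nonneg_right h3 (by linarith : 0 ≤ r - ⟪ν, x⟫)]
  have key := integral_trace_nonpos cK hYd (by positivity) hin
  -- the divergence of the field
  set g : Fin N → Euc n → ℝ := fun i x => 2 * deriv (z i) ⟪u i, x⟫ - n * z i ⟪u i, x⟫ ^ 2 -
    2 * ⟪u i, x⟫ * z i ⟪u i, x⟫ * deriv (z i) ⟪u i, x⟫ with hg
  have htr : ∀ x, LinearMap.trace ℝ (Euc n) (fderiv ℝ Y x : _ →ₗ[ℝ] _) =
      (∑ i, c i * g i x) - n := by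
    intro x
    set L : Fin N → Euc n →L[ℝ] ℝ := fun i => innerSL ℝ (u i)
    have hz' : ∀ i, HasFDerivAt (fun y => z i ⟪u i, y⟫) (deriv (z i) ⟪u i, x⟫ • L i) x := fun i =>
      ((hz i).differentiable one_ne_zero _).hasDerivAt.comp_hasFDerivAt x (L i).hasFDerivAt
    have hSD : HasFDerivAt S
        (∑ i, c i • ((2 * z i ⟪u i, x⟫) • deriv (z i) ⟪u i, x⟫ • L i)) x := by
      refine HasFDerivAt.fun_sum fun i _ => ?_
      refine ((hz' i).pow 2).const_mul (c i) |>.congr_fderiv ?_
      ext v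
      simp
    have hD : HasFDerivAt Y ((∑ i, ((2 * c i) • deriv (z i) ⟪u i, x⟫ • L i).smulRight (u i)) -
        ((S x + 1) • ContinuousLinearMap.id ℝ (Euc n) +
          (∑ i, c i • ((2 * z i ⟪u i, x⟫) • deriv (z i) ⟪u i, x⟫ • L i)).smulRight x)) x := by
      refine HasFDerivAt.sub (HasFDerivAt.fun_sum fun i _ => ?_) ((hSD.add_const 1).smul
        (hasFDerivAt_id x))
      exact ((hz' i).const_mul (2 * c i)).smul_const (u i)
    have htrs : ∀ (f : Euc n →L[ℝ] ℝ) (v : Euc n),
        LinearMap.trace ℝ (Euc n) (f.smulRight v : _ →ₗ[ℝ] _) = f v := fun f v =>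
      LinearMap.trace_smulRight (f : Euc n →ₗ[ℝ] ℝ) v
    rw [hD.fderiv]
    simp only [ContinuousLinearMap.toLinearMap_sub, ContinuousLinearMap.toLinearMap_add,
      ContinuousLinearMap.toLinearMap_sum, ContinuousLinearMap.toLinearMap_smul, map_sub, map_add,
      map_sum, map_smul, ContinuousLinearMap.coe_id, LinearMap.trace_id,
      finrank_euclideanSpace_fin, smul_eq_mul, hg]
    simp only [htrs, _root_.sum_apply, _root_.smul_apply, L,
      innerSL_apply_apply, smul_eq_mul, real_inner_self_eq_norm_sq, hu, hS]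
    simp only [add_mul, Finset.sum_mul, mul_sub, Finset.sum_sub_distrib, one_mul]
    ring_nf
    simp only [mul_comm, mul_left_comm, mul_assoc]
  simp only [htr] at key
  have hgi : ∀ i, IntegrableOn (g i) K := fun i => by
    have := (hz i).continuous_deriv le_rfl
    exact (by simp only [hg]; fun_prop : Continuous (g i)).continuousOn.integrableOn_compact cK
  rw [integral_sub (integrable_finsetSum _ fun i _ => (hgi i).const_mul _)
    (integrableOn_const cK.measure_lt_top.ne), integral_finsetSum _ (fun i _ => (hgi i).const_mul _),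
    setIntegral_const, smul_eq_mul, measureReal_def] at key
  simp only [integral_const_mul] at key
  linarith

/-- The same datum against the section functions. -/
theorem fisher_datum {n N : ℕ} {K : Set (Euc n)} {c : Fin N → ℝ} {u : Fin N → Euc n}
    (h : InJohn K c u) {z : Fin N → ℝ → ℝ} (hz : ∀ i, ContDiff ℝ 1 (z i)) :
    ∑ i, c i * ∫ t, (2 * deriv (z i) t - n * z i t ^ 2 - 2 * t * z i t * deriv (z i) t) *
        sect K (u i) t ≤ n * (volume K).toReal := by
  refine le_trans (le_of_eq (Finset.sum_congr rfl fun i _ => ?_)) (fisher_datum_set h hz)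
  have := (hz i).continuous_deriv le_rfl
  rw [integral_sect_mul h.1 (h.2.2.2.2.1 i) (by fun_prop)]

end Vale.Agent.P237.Full
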