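import Vale.Agent.P237.Full.Data.Gauss
import Vale.Agent.P237.Full.Defs
import Vale.Agent.P237.Full.Moment

/-!
P237: the averaged entropy datum of the Gaussian lift at the John contacts.
-/

namespace Vale.Agent.P237.Full

open Vale.Agent.P084 MeasureTheory ProbabilityTheory Set Filter Topology Module
open scoped Real RealInnerProductSpace

/-- The moments of the half Gaussian. -/
theorem integral_half_gauss (k : ℕ) :
    ∫ s in Ioi (0 : ℝ), s ^ (k + 1) * Real.exp (-s ^ 2 / 2) =
      √2 ^ k * Real.Gamma ((k : ℝ) / 2 + 1) := by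
  have h := integral_rpow_mul_exp_neg_mul_rpow (p := 2) (q := (k + 1 : ℕ)) (b := 1 / 2)
    (by norm_num) (by linarith [(Nat.cast_nonneg (k + 1) : (0 : ℝ) ≤ _)])
    (by norm_num)
  have e : ∀ s : ℝ, s ^ (((k + 1 : ℕ) : ℝ)) * Real.exp (-(1 / 2) * s ^ (2 : ℝ)) =
      s ^ (k + 1) * Real.exp (-s ^ 2 / 2) := fun s => by
    rw [Real.rpow_natCast, Real.rpow_two]; ring_nf
  simp only [e] at h
  rw [h]
  have e1 : ((((k + 1 : ℕ) : ℝ)) + 1) / 2 = (k : ℝ) / 2 + 1 := by push_cast; ring
  rw [neg_div, e1, one_div (2 : ℝ), ← Real.rpow_neg_one (2 : ℝ), ← Real.rpow_mul (by norm_num),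
    show (-1 : ℝ) * -((k : ℝ) / 2 + 1) = (1 / 2 : ℝ) * k + 1 by ring,
    Real.rpow_add (by norm_num), Real.rpow_one, Real.rpow_mul (by norm_num), ← Real.sqrt_eq_rpow,
    Real.rpow_natCast, Real.rpow_neg_one]
  ring

theorem integrableOn_half_gauss (k : ℕ) :
    IntegrableOn (fun s : ℝ => s ^ k * Real.exp (-s ^ 2 / 2)) (Ioi 0) := by
  have h := integrableOn_rpow_mul_exp_neg_mul_sq (b := 1 / 2) (by norm_num) (s := (k : ℝ))
    (by linarith [(Nat.cast_nonneg k : (0 : ℝ) ≤ k)])
  refine h.congr_fun (fun s _ => ?_) measurableSet_Ioi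
  dsimp only
  rw [Real.rpow_natCast]; ring_nf

/-- The density of the radial variable of the lift, a chi law with `n + 2` degrees of freedom. -/
noncomputable def lift (n : ℕ) (s : ℝ) : ℝ :=
  s ^ (n + 1) * Real.exp (-s ^ 2 / 2) / ∫ r in Ioi (0 : ℝ), r ^ (n + 1) * Real.exp (-r ^ 2 / 2)

theorem continuous_lift_integral (n : ℕ) {q : ℝ → ℝ} (hq : Continuous q) {C : ℝ}
    (hC : ∀ y, |q y| ≤ C * (1 + y ^ 2)) :
    Continuous fun t => ∫ s in Ioi (0 : ℝ), lift n s * q (s * t) := by
  refine continuous_iff_continuousAt.2 fun t₀ => ?_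
  have hC0 : 0 ≤ C := by have := (abs_nonneg _).trans (hC 0); simpa using this
  set Z := ∫ r in Ioi (0 : ℝ), r ^ (n + 1) * Real.exp (-r ^ 2 / 2) with hZ
  have hi : Integrable (fun s => C / |Z| * (s ^ (n + 1) * Real.exp (-s ^ 2 / 2)) +
      C * (|t₀| + 1) ^ 2 / |Z| * (s ^ (n + 3) * Real.exp (-s ^ 2 / 2)))
      (volume.restrict (Ioi 0)) :=
    ((integrableOn_half_gauss (n + 1)).const_mul _).add
      ((integrableOn_half_gauss (n + 3)).const_mul _)
  refine continuousAt_of_dominated (Eventually.of_forall fun t => ?_) ?_ hi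
    (Eventually.of_forall fun s => by fun_prop)
  · simp only [lift]; exact (by fun_prop : Continuous _).aestronglyMeasurable
  filter_upwards [Metric.closedBall_mem_nhds t₀ one_pos] with t ht
  filter_upwards [ae_restrict_mem measurableSet_Ioi] with s (hs : (0 : ℝ) < s)
  have ht' : t ^ 2 ≤ (|t₀| + 1) ^ 2 := by
    rw [Metric.mem_closedBall, Real.dist_eq] at ht
    rw [← sq_abs t]
    refine pow_le_pow_left₀ (abs_nonneg _) ?_ 2
    linarith [abs_sub_abs_le_abs_sub t t₀]
  rw [lift, ← hZ, Real.norm_eq_abs, abs_mul, abs_div, abs_of_pos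
    (by positivity : 0 < s ^ (n + 1) * Real.exp (-s ^ 2 / 2))]
  refine (mul_le_mul_of_nonneg_left (hC _) (by positivity)).trans ?_
  have e : C / |Z| * (s ^ (n + 1) * Real.exp (-s ^ 2 / 2)) +
      C * (|t₀| + 1) ^ 2 / |Z| * (s ^ (n + 3) * Real.exp (-s ^ 2 / 2)) =
      s ^ (n + 1) * Real.exp (-s ^ 2 / 2) / |Z| * (C * (1 + s ^ 2 * (|t₀| + 1) ^ 2)) := by ring
  rw [e, mul_pow]
  gcongr

section

variable {n N : ℕ} {K : Set (Euc n)}

theorem gauge_le_iff (hcv : Convex ℝ K) (cK : IsCompact K) (h0 : K ∈ 𝓝 0) {s : ℝ} (hs : 0 < s)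
    {y : Euc n} : gauge K y ≤ s ↔ s⁻¹ • y ∈ K := by
  rw [← cK.isClosed.closure_eq, ← gauge_le_one_iff_mem_closure hcv h0, cK.isClosed.closure_eq,
    gauge_smul_of_nonneg (inv_nonneg.2 hs.le), smul_eq_mul, inv_mul_le_one₀ hs]

/-- Integrating over all dilates of the body is integrating against the gauge. -/
theorem lintegral_dilates (hcv : Convex ℝ K) (cK : IsCompact K) (h0 : K ∈ 𝓝 0)
    {F : Euc n → ENNReal} (hF : Measurable F) {a : ℝ → ENNReal} (ha : Measurable a) :
    ∫⁻ s in Ioi (0 : ℝ), a s * (ENNReal.ofReal (s ^ n) * ∫⁻ x in K, F (s • x)) =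
      ∫⁻ y, F y * ∫⁻ s in Ioi (0 : ℝ), (Ici (gauge K y)).indicator a s := by
  have hN : Continuous (gauge K) := continuous_gauge hcv h0
  have hm : MeasurableSet {p : ℝ × Euc n | gauge K p.2 ≤ p.1} :=
    measurableSet_le (hN.measurable.comp measurable_snd) measurable_fst
  have hjm : Measurable fun p : ℝ × Euc n =>
      F p.2 * {p : ℝ × Euc n | gauge K p.2 ≤ p.1}.indicator (fun p => a p.1) p :=
    (hF.comp measurable_snd).mul ((ha.comp measurable_fst).indicator hm)
  have e1 : ∀ s ∈ Ioi (0 : ℝ), a s * (ENNReal.ofReal (s ^ n) * ∫⁻ x in K, F (s • x)) =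
      ∫⁻ y, F y * (Ici (gauge K y)).indicator a s := by
    intro s (hs : 0 < s)
    have hsm : MeasurableSet {y : Euc n | gauge K y ≤ s} :=
      (isClosed_le hN continuous_const).measurableSet
    have e2 : ∀ x, K.indicator (fun x => F (s • x)) x =
        ({y : Euc n | gauge K y ≤ s}.indicator F) (s • x) := fun x => by
      have : s • x ∈ {y : Euc n | gauge K y ≤ s} ↔ x ∈ K := by
        rw [mem_ofPred_eq, gauge_le_iff hcv cK h0 hs, smul_smul, inv_mul_cancel₀ hs.ne', one_smul]
      by_cases hx : x ∈ K <;> simp [indicator, hx, this]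
    rw [← lintegral_indicator cK.measurableSet, lintegral_congr e2,
      ← lintegral_map (hF.indicator hsm) (measurable_const_smul s),
      Measure.map_addHaar_smul _ hs.ne', lintegral_smul_measure, smul_eq_mul, ← mul_assoc
      (ENNReal.ofReal _), ← ENNReal.ofReal_mul (by positivity), finrank_euclideanSpace_fin,
      abs_of_pos (by positivity), mul_inv_cancel₀ (by positivity), ENNReal.ofReal_one, one_mul,
      ← lintegral_const_mul _ (hF.indicator hsm)]
    refine lintegral_congr fun y => ?_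
    by_cases hy : gauge K y ≤ s <;> simp [indicator, hy, mul_comm]
  rw [setLIntegral_congr_fun measurableSet_Ioi e1]
  have e3 : ∀ (s : ℝ) (y : Euc n), F y * (Ici (gauge K y)).indicator a s =
      F y * {p : ℝ × Euc n | gauge K p.2 ≤ p.1}.indicator (fun p => a p.1) (s, y) := fun s y => by
    by_cases hy : gauge K y ≤ s <;> simp [indicator, hy]
  simp only [e3]
  rw [lintegral_lintegral_swap hjm.aemeasurable]
  refine lintegral_congr fun y => ?_
  exact lintegral_const_mul _ (((ha.comp measurable_fst).indicator hm).comp measurable_prodMk_right)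

theorem integral_gauge_sq (hcv : Convex ℝ K) (cK : IsCompact K) (h0 : K ∈ 𝓝 0) :
    ∫ x in K, gauge K x ^ 2 = n / ((n : ℝ) + 2) * (volume K).toReal := by
  have hN : Continuous (gauge K) := continuous_gauge hcv h0
  have hN1 : ∀ x ∈ K, gauge K x ≤ 1 := fun x hx => gauge_le_one_of_mem hx
  have key := lintegral_dilates hcv cK h0 (F := fun _ => 1) measurable_const
    (a := (Iio (1 : ℝ)).indicator fun s => ENNReal.ofReal (2 * s))
    ((by fun_prop : Measurable fun s : ℝ => ENNReal.ofReal (2 * s)).indicator measurableSet_Iio)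
  have hr : ∀ y : Euc n, (∫⁻ s in Ioi (0 : ℝ), (Ici (gauge K y)).indicator
      ((Iio (1 : ℝ)).indicator fun s => ENNReal.ofReal (2 * s)) s) =
        ENNReal.ofReal (1 - gauge K y ^ 2) := by
    intro y
    have hg := gauge_nonneg (s := K) y
    rw [indicator_indicator, lintegral_indicator (measurableSet_Ici.inter measurableSet_Iio),
      Ici_inter_Iio, Measure.restrict_restrict measurableSet_Ico,
      setLIntegral_congr (t := Ioc (gauge K y) 1)]
    · rcases le_total 1 (gauge K y) with h | h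
      · rw [Ioc_eq_empty (not_lt.2 h), setLIntegral_empty, ENNReal.ofReal_of_nonpos (by nlinarith)]
      · rw [← ofReal_integral_eq_lintegral_ofReal
          ((by fun_prop : Continuous fun s : ℝ => 2 * s).integrableOn_Ioc)
          ((ae_restrict_mem measurableSet_Ioc).mono fun s hs => by
            have := hg.trans hs.1.le; positivity),
          ← intervalIntegral.integral_of_le h, intervalIntegral.integral_const_mul, integral_id]
        ring_nf
    · exact (ae_eq_set_inter Ico_ae_eq_Ioc Filter.EventuallyEq.rfl).trans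
        (Filter.EventuallyEq.of_eq (inter_eq_left.2 fun s hs => hg.trans_lt hs.1))
  simp only [hr, one_mul, lintegral_one, Measure.restrict_apply_univ] at key
  have hsupp : ∀ y, ENNReal.ofReal (1 - gauge K y ^ 2) =
      K.indicator (fun y => ENNReal.ofReal (1 - gauge K y ^ 2)) y := fun y => by
    by_cases hy : y ∈ K
    · rw [indicator_of_mem hy]
    · rw [indicator_of_notMem hy, ENNReal.ofReal_of_nonpos]
      have : ¬ gauge K y ≤ 1 := by
        rwa [gauge_le_one_iff_mem_closure hcv h0, cK.isClosed.closure_eq]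
      nlinarith [not_le.1 this]
  rw [lintegral_congr hsupp, lintegral_indicator cK.measurableSet,
    ← ofReal_integral_eq_lintegral_ofReal
      ((by fun_prop : Continuous fun x => 1 - gauge K x ^ 2).continuousOn.integrableOn_compact cK)
      ((ae_restrict_mem cK.measurableSet).mono fun x hx => by
        have := hN1 x hx; have := gauge_nonneg (s := K) x
        show 0 ≤ 1 - gauge K x ^ 2
        nlinarith)] at key
  have hl : ∫⁻ s in Ioi (0 : ℝ), ((Iio (1 : ℝ)).indicator fun s => ENNReal.ofReal (2 * s)) s *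
      (ENNReal.ofReal (s ^ n) * volume K) =
        ENNReal.ofReal (2 / ((n : ℝ) + 2)) * volume K := by
    simp only [← mul_assoc]
    rw [lintegral_mul_const' _ _ cK.measure_lt_top.ne]
    congr 1
    have e : ∀ s : ℝ, ((Iio (1 : ℝ)).indicator fun s => ENNReal.ofReal (2 * s)) s *
        ENNReal.ofReal (s ^ n) =
          (Iio (1 : ℝ)).indicator (fun s => ENNReal.ofReal (2 * s) * ENNReal.ofReal (s ^ n)) s :=
      fun s => by by_cases h : s < 1 <;> simp [indicator, h]
    rw [lintegral_congr e, lintegral_indicator measurableSet_Iio,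
      Measure.restrict_restrict measurableSet_Iio, Iio_inter_Ioi,
      setLIntegral_congr_fun measurableSet_Ioo (g := fun s => ENNReal.ofReal (2 * s ^ (n + 1)))
        (fun s hs => by
          rw [← ENNReal.ofReal_mul (by linarith [hs.1])]; ring_nf),
      setLIntegral_congr Ioo_ae_eq_Ioc,
      ← ofReal_integral_eq_lintegral_ofReal
        ((by fun_prop : Continuous fun s : ℝ => 2 * s ^ (n + 1)).integrableOn_Ioc)
        ((ae_restrict_mem measurableSet_Ioc).mono fun s hs => by have := hs.1.le; positivity),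
      ← intervalIntegral.integral_of_le zero_le_one, intervalIntegral.integral_const_mul,
      integral_pow]
    congr 1
    simp
    ring
  rw [hl] at key
  have h := congrArg ENNReal.toReal key
  rw [ENNReal.toReal_mul, ENNReal.toReal_ofReal (by positivity), ENNReal.toReal_ofReal
    (setIntegral_nonneg cK.measurableSet fun x hx => by
      have := hN1 x hx; have := gauge_nonneg (s := K) x; nlinarith),
    integral_sub (integrableOn_const cK.measure_lt_top.ne : IntegrableOn (fun _ => (1 : ℝ)) K volume)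
      ((by fun_prop : Continuous fun x => gauge K x ^ 2).continuousOn.integrableOn_compact cK),
    setIntegral_const, smul_eq_mul, mul_one,
    measureReal_def] at h
  have : ((n : ℝ) + 2) ≠ 0 := by positivity
  field_simp at h ⊢
  linarith

/-- Averaged over the John contacts, a test function on the marginals of the Gaussian lift is at
most half the excess second moment less the logarithm of the volume ratio. -/
theorem entropy_datum {c : Fin N → ℝ} {u : Fin N → Euc n} (h : InJohn K c u)
    (q : Fin N → ℝ → ℝ) (hq : ∀ i, Continuous (q i))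
    (hb : ∀ i, ∃ C, ∀ y, |q i y| ≤ C * (1 + y ^ 2))
    (hq1 : ∀ i, ∫ y, Real.exp (q i y) * gaussianPDFReal 0 1 y = 1) :
    ∑ i, c i * ((∫ t, (∫ s in Ioi (0 : ℝ), lift n s * q i (s * t)) * sect K (u i) t) /
        (volume K).toReal) ≤
      ((n + 2) / (volume K).toReal * (∫ x in K, ‖x‖ ^ 2) - n) / 2 -
        Real.log ((volume K).toReal / kappa n) := by
  have hsect : ∀ i, (∫ t, (∫ s in Ioi (0 : ℝ), lift n s * q i (s * t)) * sect K (u i) t) =
      ∫ x in K, ∫ s in Ioi (0 : ℝ), lift n s * q i (s * ⟪u i, x⟫) := fun i => by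
    obtain ⟨C, hC⟩ := hb i
    exact integral_sect_mul h.1 (h.2.2.2.2.1 i) (continuous_lift_integral n (hq i) hC)
  simp only [hsect]
  obtain ⟨⟨cvK, cK, hint⟩, hsym, hball, hc, hu, hcn, hiso, hslab⟩ := h
  have h0 : K ∈ 𝓝 (0 : Euc n) :=
    mem_of_superset (Metric.closedBall_mem_nhds 0 one_pos) hball
  have hN : Continuous (gauge K) := continuous_gauge cvK h0
  set V := (volume K).toReal with hV
  have hV0 : 0 < V := ENNReal.toReal_pos
    ((Measure.measure_pos_of_nonempty_interior volume hint).ne') cK.measure_lt_top.ne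
  set Z := ∫ r in Ioi (0 : ℝ), r ^ (n + 1) * Real.exp (-r ^ 2 / 2) with hZ
  have hZ0 : 0 < Z := by
    rw [hZ, integral_half_gauss]
    exact mul_pos (by positivity) (Real.Gamma_pos_of_pos (by positivity))
  have hkap : √(2 * π) ^ n / (Z * V) = kappa n / V := by
    rw [hZ, integral_half_gauss, Real.sqrt_mul (by norm_num), mul_pow, kappa]
    have : Real.Gamma ((n : ℝ) / 2 + 1) ≠ 0 := (Real.Gamma_pos_of_pos (by positivity)).ne'
    field_simp
  have hJ : ∫ s in Ioi (0 : ℝ), s ^ (n + 3) * Real.exp (-s ^ 2 / 2) = (n + 2) * Z := by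
    rw [hZ, show n + 3 = n + 2 + 1 by rfl, integral_half_gauss, integral_half_gauss, pow_add,
      Real.sq_sqrt (by norm_num), Nat.cast_add,
      show ((n : ℝ) + (2 : ℕ)) / 2 + 1 = ((n : ℝ) / 2 + 1) + 1 by push_cast; ring,
      Real.Gamma_add_one (by positivity)]
    ring
  set μ := (volume.restrict (Ioi (0 : ℝ))).prod (volume.restrict K) with hμ
  set w : ℝ × Euc n → ℝ := fun p => p.1 ^ (n + 1) * Real.exp (-p.1 ^ 2 / 2) with hw
  set T : Fin N → ℝ × Euc n → ℝ := fun i p => w p * q i (p.1 * ⟪u i, p.2⟫) with hT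
  set h' : ℝ × Euc n → ℝ := fun p =>
    (∑ i, c i * q i (p.1 * ⟪u i, p.2⟫)) - p.1 ^ 2 * (‖p.2‖ ^ 2 - gauge K p.2 ^ 2) / 2 with hh
  set E : ℝ × Euc n → ℝ := fun p => w p * (p.1 ^ 2 * ((‖p.2‖ ^ 2 - gauge K p.2 ^ 2) / 2)) with hE
  have hfin : IsFiniteMeasure (volume.restrict K) :=
    isFiniteMeasure_restrict.2 cK.measure_lt_top.ne
  have hwi : Integrable w μ := by
    simpa [hw] using Integrable.mul_prod (f := fun s : ℝ => s ^ (n + 1) * Real.exp (-s ^ 2 / 2))
      (integrableOn_half_gauss (n + 1)) (integrable_const (μ := volume.restrict K) (1 : ℝ))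
  have hEi : Integrable E μ := by
    have h2 : Integrable (fun x : Euc n => (‖x‖ ^ 2 - gauge K x ^ 2) / 2) (volume.restrict K) :=
      (by fun_prop : Continuous fun x : Euc n => (‖x‖ ^ 2 - gauge K x ^ 2) / 2
        ).continuousOn.integrableOn_compact cK
    refine (Integrable.mul_prod (integrableOn_half_gauss (n + 3)) h2).congr
      (Eventually.of_forall fun p => ?_)
    simp only [hE, hw]; ring
  have hTi : ∀ i, Integrable (T i) μ := by
    intro i
    obtain ⟨C, hC⟩ := hb i
    have hC0 : 0 ≤ C := by have := (abs_nonneg _).trans (hC 0); simpa using this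
    have hd : Integrable (fun p : ℝ × Euc n =>
        (p.1 ^ (n + 1) * Real.exp (-p.1 ^ 2 / 2)) * C +
          (p.1 ^ (n + 3) * Real.exp (-p.1 ^ 2 / 2)) * (C * ⟪u i, p.2⟫ ^ 2)) μ :=
      (Integrable.mul_prod (integrableOn_half_gauss (n + 1)) (integrable_const C)).add
        (Integrable.mul_prod (integrableOn_half_gauss (n + 3))
          ((by fun_prop : Continuous fun x : Euc n => C * ⟪u i, x⟫ ^ 2
            ).continuousOn.integrableOn_compact cK))
    refine hd.mono' (by simp only [hT, hw]; exact (by fun_prop : Continuous _).aestronglyMeasurable)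
      ?_
    have hpos : ∀ᵐ p ∂μ, (0 : ℝ) < p.1 :=
      Measure.quasiMeasurePreserving_fst.ae (ae_restrict_mem measurableSet_Ioi)
    filter_upwards [hpos] with p hp
    simp only [hT, hw]
    rw [Real.norm_eq_abs, abs_mul,
      abs_of_pos (by positivity : 0 < p.1 ^ (n + 1) * Real.exp (-p.1 ^ 2 / 2))]
    refine (mul_le_mul_of_nonneg_left (hC _) (by positivity)).trans (le_of_eq ?_)
    ring
  have hwh : (fun p => w p * h' p) = fun p => (∑ i, c i * T i p) - E p := by
    funext p
    simp only [hh, hT, hE, mul_sub, Finset.mul_sum]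
    congr 1
    · exact Finset.sum_congr rfl fun i _ => by ring
    · ring
  have hwhi : Integrable (fun p => w p * h' p) μ := by
    rw [hwh]; exact (integrable_finsetSum _ fun i _ => (hTi i).const_mul _).sub hEi
  -- the exponential moment, by the inequality of Brascamp and Lieb
  set m := Real.log (kappa n / V) with hm
  set G : ℝ × Euc n → ℝ := fun p => w p * Real.exp (h' p - m) with hG
  have hGc : Continuous G := by simp only [hG, hw, hh]; fun_prop
  set F : Euc n → ℝ := fun y =>
    Real.exp (∑ i, c i * q i ⟪u i, y⟫ - ‖y‖ ^ 2 / 2 + gauge K y ^ 2 / 2 - m) with hF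
  have hGF : ∀ s ∈ Ioi (0 : ℝ), ∀ x, ENNReal.ofReal (G (s, x)) =
      ENNReal.ofReal (s * Real.exp (-s ^ 2 / 2)) *
        (ENNReal.ofReal (s ^ n) * ENNReal.ofReal (F (s • x))) := by
    intro s (hs : 0 < s) x
    rw [← ENNReal.ofReal_mul (by positivity), ← ENNReal.ofReal_mul (by positivity)]
    congr 1
    simp only [hG, hF, hw, hh, real_inner_smul_right, norm_smul, Real.norm_of_nonneg hs.le,
      gauge_smul_of_nonneg hs.le, smul_eq_mul]
    rw [show ∑ i, c i * q i (s * ⟪u i, x⟫) - (s * ‖x‖) ^ 2 / 2 + (s * gauge K x) ^ 2 / 2 - m =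
      ∑ i, c i * q i (s * ⟪u i, x⟫) - s ^ 2 * (‖x‖ ^ 2 - gauge K x ^ 2) / 2 - m by ring]
    ring
  have hFm : Measurable fun y => ENNReal.ofReal (F y) := by
    simp only [hF]; exact (by fun_prop : Continuous _).measurable.ennreal_ofReal
  have hGle : ∫⁻ p, ENNReal.ofReal (G p) ∂μ ≤ ENNReal.ofReal (Z * V) := by
    rw [hμ, lintegral_prod _ hGc.measurable.ennreal_ofReal.aemeasurable]
    rw [setLIntegral_congr_fun measurableSet_Ioi (g := fun s =>
      ENNReal.ofReal (s * Real.exp (-s ^ 2 / 2)) *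
        (ENNReal.ofReal (s ^ n) * ∫⁻ x in K, ENNReal.ofReal (F (s • x)))) fun s hs => ?_]
    swap
    · dsimp only
      rw [← lintegral_const_mul' _ _ ENNReal.ofReal_ne_top,
        ← lintegral_const_mul' _ _ ENNReal.ofReal_ne_top]
      exact lintegral_congr (hGF s hs)
    rw [lintegral_dilates cvK cK h0 hFm (by fun_prop)]
    have htail : ∀ y, ∫⁻ s in Ioi (0 : ℝ), (Ici (gauge K y)).indicator
        (fun s => ENNReal.ofReal (s * Real.exp (-s ^ 2 / 2))) s =
          ENNReal.ofReal (Real.exp (-gauge K y ^ 2 / 2)) := by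
      intro y
      have hg := gauge_nonneg (s := K) y
      rw [lintegral_indicator measurableSet_Ici, Measure.restrict_restrict measurableSet_Ici,
        setLIntegral_congr (t := Ioi (gauge K y)) ((ae_eq_set_inter Ioi_ae_eq_Ici.symm
          Filter.EventuallyEq.rfl).trans (Filter.EventuallyEq.of_eq
            (inter_eq_left.2 (Ioi_subset_Ioi hg))))]
      have hd : ∀ x ∈ Ici (gauge K y), HasDerivAt (fun s => -Real.exp (-s ^ 2 / 2))
          (x * Real.exp (-x ^ 2 / 2)) x := fun x _ => by
        refine ((((hasDerivAt_pow 2 x).neg).div_const 2).exp).neg.congr_deriv ?_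
        simp only [Nat.cast_ofNat, pow_one, Nat.add_one_sub_one, Pi.neg_apply]
        ring
      have hlim : Tendsto (fun s : ℝ => -Real.exp (-s ^ 2 / 2)) atTop (𝓝 0) := by
        rw [← neg_zero]
        refine (Real.tendsto_exp_atBot.comp ?_).neg
        exact ((tendsto_neg_atTop_atBot.comp (tendsto_pow_atTop two_ne_zero)).atBot_div_const
          two_pos)
      have hpos : ∀ x ∈ Ioi (gauge K y), 0 ≤ x * Real.exp (-x ^ 2 / 2) := fun x hx =>
        mul_nonneg (hg.trans (mem_Ioi.1 hx).le) (Real.exp_pos _).le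
      rw [← ofReal_integral_eq_lintegral_ofReal
        (integrableOn_Ioi_deriv_of_nonneg' hd hpos hlim)
        ((ae_restrict_mem measurableSet_Ioi).mono hpos),
        integral_Ioi_of_hasDerivAt_of_nonneg' hd hpos hlim, zero_sub, neg_neg]
    simp only [htail, hF, ← ENNReal.ofReal_mul (Real.exp_pos _).le, ← Real.exp_add]
    have e : ∀ y : Euc n, ∑ i, c i * q i ⟪u i, y⟫ - ‖y‖ ^ 2 / 2 + gauge K y ^ 2 / 2 - m +
        -gauge K y ^ 2 / 2 = (∑ i, c i * q i ⟪u i, y⟫ - ‖y‖ ^ 2 / 2) + -m := fun y => by ring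
    simp only [e, Real.exp_add, ENNReal.ofReal_mul (Real.exp_pos _).le]
    rw [lintegral_mul_const' _ _ ENNReal.ofReal_ne_top]
    refine (mul_le_mul_left (gauss_bl c u hc hu hiso q hq hq1) _).trans (le_of_eq ?_)
    rw [← ENNReal.ofReal_mul (by positivity), Real.exp_neg, hm,
      Real.exp_log (div_pos (kappa_pos n) hV0), ← hkap]
    congr 1
    field_simp
  have hpos : ∀ᵐ p ∂μ, 0 ≤ w p := by
    filter_upwards [Measure.quasiMeasurePreserving_fst.ae (ae_restrict_mem measurableSet_Ioi)]
      with p (hp : (0 : ℝ) < p.1)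
    simp only [hw]; positivity
  have hG0 : ∀ᵐ p ∂μ, 0 ≤ G p := hpos.mono fun p hp => mul_nonneg hp (Real.exp_pos _).le
  have hGi : Integrable G μ := ⟨hGc.aestronglyMeasurable,
    (hasFiniteIntegral_iff_ofReal hG0).2 (hGle.trans_lt ENNReal.ofReal_lt_top)⟩
  have hGint : ∫ p, G p ∂μ ≤ Z * V := by
    rw [integral_eq_lintegral_of_nonneg_ae hG0 hGc.aestronglyMeasurable,
      ← ENNReal.toReal_ofReal (by positivity : 0 ≤ Z * V)]
    exact ENNReal.toReal_mono ENNReal.ofReal_ne_top hGle
  have hwint : ∫ p, w p ∂μ = Z * V := by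
    have := integral_prod_mul (μ := volume.restrict (Ioi (0 : ℝ))) (ν := volume.restrict K)
      (fun s : ℝ => s ^ (n + 1) * Real.exp (-s ^ 2 / 2)) (fun _ : Euc n => (1 : ℝ))
    simpa [hw, hμ, hZ, hV, measureReal_def] using this
  have hle : ∫ p, ((1 - m) * w p + w p * h' p) ∂μ ≤ ∫ p, G p ∂μ := by
    refine integral_mono_ae ((hwi.const_mul _).add hwhi) hGi (hpos.mono fun p hp => ?_)
    simp only [hG]
    nlinarith [mul_le_mul_of_nonneg_left (Real.add_one_le_exp (h' p - m)) hp]
  rw [integral_add (hwi.const_mul _) hwhi, integral_const_mul, hwint, hwh,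
    integral_sub (integrable_finsetSum _ fun i _ => (hTi i).const_mul _) hEi,
    integral_finsetSum _ fun i _ => (hTi i).const_mul _] at hle
  simp only [integral_const_mul] at hle
  have hTint : ∀ i, ∫ p, T i p ∂μ =
      Z * ∫ x in K, ∫ s in Ioi (0 : ℝ), lift n s * q i (s * ⟪u i, x⟫) := by
    intro i
    rw [hμ, integral_prod_symm _ (hTi i), ← integral_const_mul]
    refine integral_congr_ae (Eventually.of_forall fun x => ?_)
    dsimp only
    rw [← integral_const_mul]
    refine integral_congr_ae (Eventually.of_forall fun s => ?_)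
    simp only [hT, hw, lift, ← hZ]
    field_simp
  have hEint : ∫ p, E p ∂μ = Z * ((n + 2) * (∫ x in K, ‖x‖ ^ 2) - n * V) / 2 := by
    have e : ∀ p : ℝ × Euc n, E p = (p.1 ^ (n + 3) * Real.exp (-p.1 ^ 2 / 2)) *
        ((‖p.2‖ ^ 2 - gauge K p.2 ^ 2) / 2) := fun p => by simp only [hE, hw]; ring
    simp only [e, hμ]
    rw [integral_prod_mul (fun s : ℝ => s ^ (n + 3) * Real.exp (-s ^ 2 / 2))
      (fun x : Euc n => (‖x‖ ^ 2 - gauge K x ^ 2) / 2), hJ, integral_div,
      integral_sub
        ((by fun_prop : Continuous fun x : Euc n => ‖x‖ ^ 2).continuousOn.integrableOn_compact cK)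
        ((by fun_prop : Continuous fun x : Euc n => gauge K x ^ 2).continuousOn.integrableOn_compact
          cK), integral_gauge_sq cvK cK h0, ← hV]
    field_simp
  simp only [hTint, hEint] at hle
  rw [show Real.log (V / kappa n) = -m by rw [hm, ← Real.log_inv, inv_div]]
  have h2 : Z * (∑ i, c i * ∫ x in K, ∫ s in Ioi (0 : ℝ), lift n s * q i (s * ⟪u i, x⟫)) ≤
      Z * (m * V + ((n + 2) * (∫ x in K, ‖x‖ ^ 2) - n * V) / 2) := by
    rw [Finset.mul_sum, Finset.sum_congr rfl fun i _ => mul_left_comm Z (c i) _]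
    linarith
  have h3 := le_of_mul_le_mul_left h2 hZ0
  rw [Finset.sum_congr rfl fun i _ => (mul_div_assoc (c i) _ V).symm, ← Finset.sum_div,
    div_le_iff₀ hV0]
  refine h3.trans (le_of_eq ?_)
  field_simp
  ring

end

end Vale.Agent.P237.Full
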