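import Vale.Agent.P237.Asym.Det
import Vale.Agent.P237.Facets.Gauss
import Vale.Agent.P237.Asym.Entropy
import Vale.Agent.P084.Fin.John

/-!
P237: the Gaussian form of the Brascamp–Lieb inequality for a decomposition of the identity, by
Barthe's transport map.
-/

namespace Vale.Agent.P237.Full

open MeasureTheory Matrix ProbabilityTheory Set Filter Topology
open Vale.Agent.P237.Facets Vale.Agent.P237.Asym Vale.Agent.P084
open scoped Real RealInnerProductSpace

theorem continuous_phi : Continuous (gaussianPDFReal 0 1) := by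
  simp only [gaussianPDFReal_def]; fun_prop

/-- The monotone map carrying a positive continuous probability density to the standard
Gaussian one. -/
theorem exists_transport {w : ℝ → ℝ} (hc : Continuous w) (hp : ∀ y, 0 < w y) (hi : Integrable w)
    (h1 : ∫ y, w y = 1) :
    ∃ T : ℝ → ℝ, StrictMono T ∧ Continuous T ∧
      ∀ y, HasDerivAt T (w y / (gaussianPDFReal 0 1) (T y)) y := by
  set P := prim (gaussianPDFReal 0 1) with hP
  have hφ0 : ∀ y, 0 < (gaussianPDFReal 0 1) y := fun y => gaussianPDFReal_pos 0 1 y one_ne_zero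
  have hφi : Integrable (gaussianPDFReal 0 1) := integrable_gaussianPDFReal 0 1
  have hφ1 : ∫ y, (gaussianPDFReal 0 1) y = 1 := integral_gaussianPDFReal_eq_one 0 one_ne_zero
  have hPd : ∀ y, HasDerivAt P ((gaussianPDFReal 0 1) y) y := hasDerivAt_prim continuous_phi hφi
  have hWd : ∀ y, HasDerivAt (prim w) (w y) y := hasDerivAt_prim hc hi
  have hPm : StrictMono P := strictMono_of_hasDerivAt_pos hPd hφ0
  have hWm : StrictMono (prim w) := strictMono_of_hasDerivAt_pos hWd hp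
  have hPc : Continuous P := continuous_iff_continuousAt.2 fun y => (hPd y).continuousAt
  have hrange : ∀ y, ∃ x, P x = prim w y := by
    intro y
    have htop : Tendsto P atTop (𝓝 (1 / 2)) := by
      have := (tendsto_setIntegral_of_monotone (fun x => measurableSet_Iic)
        (fun a b h => Iic_subset_Iic.2 h) (hφi.integrableOn)).sub_const (1 / 2 : ℝ)
      rw [iUnion_Iic, setIntegral_univ, hφ1] at this
      rw [show (1 : ℝ) - 1 / 2 = 1 / 2 by norm_num] at this
      exact this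
    have hbot : Tendsto P atBot (𝓝 (-(1 / 2))) := by
      have := (tendsto_integral_Iic_zero (μ := volume) (f := (gaussianPDFReal 0 1)) tendsto_id).sub_const (1 / 2 : ℝ)
      rw [zero_sub] at this
      exact this
    have h2 := abs_le.1 (abs_prim_le hi hp h1 (y + 1))
    have h3 := abs_le.1 (abs_prim_le hi hp h1 (y - 1))
    have hlt := hWm (lt_add_one y)
    have hgt := hWm (sub_one_lt y)
    obtain ⟨a, ha⟩ := (hbot.eventually (gt_mem_nhds (show -(1 / 2 : ℝ) < prim w y by linarith))).exists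
    obtain ⟨b, hb⟩ := (htop.eventually (lt_mem_nhds (show prim w y < 1 / 2 by linarith))).exists
    exact mem_range_of_exists_le_of_exists_ge hPc ⟨a, ha.le⟩ ⟨b, hb.le⟩
  choose T hT using hrange
  have hTm : StrictMono T := fun a b h => hPm.lt_iff_lt.1 (by rw [hT, hT]; exact hWm h)
  have hTc : Continuous T := by
    refine continuous_iff_continuousAt.2 fun y => tendsto_order.2 ⟨fun a ha => ?_, fun a ha => ?_⟩
    · have : ∀ᶠ y' in 𝓝 y, P a < prim w y' :=
        (hWd y).continuousAt.eventually (lt_mem_nhds (by rw [← hT y]; exact hPm ha))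
      filter_upwards [this] with y' hy'
      exact hPm.lt_iff_lt.1 (by rwa [hT])
    · have : ∀ᶠ y' in 𝓝 y, prim w y' < P a :=
        (hWd y).continuousAt.eventually (gt_mem_nhds (by rw [← hT y]; exact hPm ha))
      filter_upwards [this] with y' hy'
      exact hPm.lt_iff_lt.1 (by rwa [hT])
  refine ⟨T, hTm, hTc, fun y => ?_⟩
  -- differentiate the equation `P (T y) = prim w y`
  have hs : Tendsto (slope P (T y)) (𝓝[≠] T y) (𝓝 ((gaussianPDFReal 0 1) (T y))) :=
    hasDerivAt_iff_tendsto_slope.1 (hPd _)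
  have hT' : Tendsto T (𝓝[≠] y) (𝓝[≠] T y) :=
    tendsto_nhdsWithin_of_tendsto_nhds_of_eventually_within _
      ((hTc.tendsto y).mono_left nhdsWithin_le_nhds)
      (eventually_nhdsWithin_of_forall fun z hz => hTm.injective.ne hz)
  refine hasDerivAt_iff_tendsto_slope.2 ?_
  refine ((hasDerivAt_iff_tendsto_slope.1 (hWd y)).div (hs.comp hT') (hφ0 _).ne').congr' ?_
  refine eventually_nhdsWithin_of_forall fun z hz => ?_
  have h4 : T z - T y ≠ 0 := sub_ne_zero.2 (hTm.injective.ne hz)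
  have h5 : P (T z) - P (T y) ≠ 0 := sub_ne_zero.2 (hPm.injective.ne (hTm.injective.ne hz))
  simp only [Function.comp, slope_def_field, Pi.div_apply]
  rw [← hT z, ← hT y]
  field_simp

/-- The Gaussian Brascamp–Lieb inequality on `Fin n → ℝ`. -/
theorem gauss_bl_pi {n N : ℕ} (c : Fin N → ℝ) (u : Fin N → Fin n → ℝ) (hc : ∀ i, 0 ≤ c i)
    (hu : ∀ i, u i ⬝ᵥ u i = 1) (hiso : Facets.gram c u = 1) (q : Fin N → ℝ → ℝ)
    (hq : ∀ i, Continuous (q i)) (hq1 : ∀ i, ∫ y, Real.exp (q i y) * (gaussianPDFReal 0 1) y = 1) :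
    ∫⁻ x : Fin n → ℝ, ENNReal.ofReal (Real.exp (∑ i, c i * q i (x ⬝ᵥ u i) - x ⬝ᵥ x / 2)) ≤
      ENNReal.ofReal (√(2 * π) ^ n) := by
  have hφ0 : ∀ y, 0 < (gaussianPDFReal 0 1) y := fun y => gaussianPDFReal_pos 0 1 y one_ne_zero
  have hwp : ∀ i y, 0 < Real.exp (q i y) * (gaussianPDFReal 0 1) y := fun i y => mul_pos (Real.exp_pos _) (hφ0 y)
  have hwi : ∀ i, Integrable fun y => Real.exp (q i y) * (gaussianPDFReal 0 1) y := fun i => by
    by_contra h
    have := hq1 i
    rw [integral_undef h] at this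
    exact zero_ne_one this
  choose T hTm hTc hTd using fun i =>
    exists_transport ((Real.continuous_exp.comp (hq i)).mul continuous_phi) (hwp i) (hwi i) (hq1 i)
  set D : Fin N → ℝ → ℝ := fun i y => Real.exp (q i y) * (gaussianPDFReal 0 1) y / (gaussianPDFReal 0 1) (T i y) with hD
  have hDp : ∀ i y, 0 < D i y := fun i y => div_pos (hwp i y) (hφ0 _)
  have hDl : ∀ i y, Real.log (D i y) = q i y - y ^ 2 / 2 + T i y ^ 2 / 2 := fun i y => by
    have e : D i y = Real.exp (q i y - y ^ 2 / 2 + T i y ^ 2 / 2) := by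
      simp only [hD, gaussianPDFReal, NNReal.coe_one, mul_one, sub_zero]
      rw [show q i y - y ^ 2 / 2 + T i y ^ 2 / 2 = q i y + -y ^ 2 / 2 - -T i y ^ 2 / 2 by ring,
        Real.exp_sub, Real.exp_add]
      field_simp
    rw [e, Real.log_exp]
  have hsum : ∀ v : Fin n → ℝ, ∑ i, c i * (v ⬝ᵥ u i) ^ 2 = v ⬝ᵥ v := fun v => by
    rw [← gram_form, hiso, one_mulVec]
  set F : (Fin n → ℝ) → (Fin n → ℝ) := fun x => ∑ i, (c i * T i (dotL (u i) x)) • u i with hF
  have hinj : Function.Injective F := by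
    intro x y hxy
    by_contra hne
    have h0 : ∑ i, c i * ((T i (x ⬝ᵥ u i) - T i (y ⬝ᵥ u i)) * ((x - y) ⬝ᵥ u i)) = 0 := by
      have h : (x - y) ⬝ᵥ (F x - F y) = 0 := by rw [hxy, sub_self, dotProduct_zero]
      rw [← h]
      simp only [hF, ← Finset.sum_sub_distrib, ← sub_smul, dotProduct_sum, dotProduct_smul,
        smul_eq_mul, ← mul_sub, dotL_apply, mul_assoc]
    have hterm : ∀ i, 0 ≤ (T i (x ⬝ᵥ u i) - T i (y ⬝ᵥ u i)) * ((x - y) ⬝ᵥ u i) := fun i => by
      rw [sub_dotProduct]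
      rcases le_total (x ⬝ᵥ u i) (y ⬝ᵥ u i) with h | h
      · exact mul_nonneg_of_nonpos_of_nonpos (sub_nonpos.2 ((hTm i).monotone h)) (sub_nonpos.2 h)
      · exact mul_nonneg (sub_nonneg.2 ((hTm i).monotone h)) (sub_nonneg.2 h)
    have hz := (Finset.sum_eq_zero_iff_of_nonneg fun i _ => mul_nonneg (hc i) (hterm i)).1 h0
    refine hne (sub_eq_zero.1 (dotProduct_self_eq_zero.1 ?_))
    rw [← hsum]
    refine Finset.sum_eq_zero fun i _ => ?_
    rcases mul_eq_zero.1 (hz i (Finset.mem_univ i)) with h | h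
    · rw [h, zero_mul]
    · rcases mul_eq_zero.1 h with h' | h'
      · rw [sub_dotProduct, (hTm i).injective (sub_eq_zero.1 h')]; ring
      · rw [h']; ring
  set M : (Fin n → ℝ) → Matrix (Fin n) (Fin n) ℝ :=
    fun x => Facets.gram (fun i => c i * D i (x ⬝ᵥ u i)) u with hM
  set F' : (Fin n → ℝ) → (Fin n → ℝ) →L[ℝ] (Fin n → ℝ) := fun x =>
    LinearMap.toContinuousLinearMap (Matrix.toLin' (M x)) with hF'
  have hderiv : ∀ x, HasFDerivAt F (F' x) x := by
    intro x
    have h : ∀ i, HasFDerivAt (fun x => (c i * T i (dotL (u i) x)) • u i)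
        ((c i • (D i (dotL (u i) x) • dotL (u i))).smulRight (u i)) x := fun i =>
      ((((hTd i _).comp_hasFDerivAt x (dotL (u i)).hasFDerivAt)).const_mul (c i)).smul_const (u i)
    refine (HasFDerivAt.fun_sum fun i _ => h i).congr_fderiv (ContinuousLinearMap.ext fun v => ?_)
    simp only [F', M, Facets.gram, _root_.sum_apply, ContinuousLinearMap.smulRight_apply,
      Finset.sum_apply, LinearMap.coe_toContinuousLinearMap', Matrix.toLin'_apply, sum_mulVec,
      smul_mulVec, vecMulVec_mulVec, op_smul_eq_smul, _root_.smul_apply, dotL_apply,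
      smul_eq_mul, smul_smul]
    exact Finset.sum_congr rfl fun i _ => by rw [dotProduct_comm (u i) v]
  -- pointwise comparison
  have key : ∀ x, ENNReal.ofReal (Real.exp (∑ i, c i * q i (x ⬝ᵥ u i) - x ⬝ᵥ x / 2)) ≤
      ENNReal.ofReal |(F' x).det| * ENNReal.ofReal (Real.exp (-(F x ⬝ᵥ F x) / 2)) := by
    intro x
    obtain ⟨hpos, hlog⟩ := logdet_exp_ge c (fun i => Real.log (D i (x ⬝ᵥ u i))) u hc hiso
    simp only [Real.exp_log (hDp _ _), hu, mul_one] at hlog hpos
    have hdet : (F' x).det = (M x).det := by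
      simp [F', ContinuousLinearMap.det, LinearMap.det_toLin']
    rw [hdet, abs_of_pos hpos, ← ENNReal.ofReal_mul hpos.le]
    refine ENNReal.ofReal_le_ofReal ?_
    rw [← Real.exp_log hpos, ← Real.exp_add]
    refine Real.exp_le_exp.2 ?_
    have h2 : F x ⬝ᵥ F x ≤ ∑ i, c i * T i (x ⬝ᵥ u i) ^ 2 := by
      have e1 : F x ⬝ᵥ F x = ∑ i, c i * T i (x ⬝ᵥ u i) * (F x ⬝ᵥ u i) := by
        conv_lhs => arg 2; rw [hF]
        simp only [dotProduct_sum, dotProduct_smul, smul_eq_mul, dotL_apply]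
      have e2 : 0 ≤ ∑ i, c i * (T i (x ⬝ᵥ u i) - F x ⬝ᵥ u i) ^ 2 :=
        Finset.sum_nonneg fun i _ => mul_nonneg (hc i) (sq_nonneg _)
      rw [Finset.sum_congr rfl fun i _ => (by ring : c i * (T i (x ⬝ᵥ u i) - F x ⬝ᵥ u i) ^ 2 =
        c i * T i (x ⬝ᵥ u i) ^ 2 - 2 * (c i * T i (x ⬝ᵥ u i) * (F x ⬝ᵥ u i)) +
          c i * (F x ⬝ᵥ u i) ^ 2), Finset.sum_add_distrib, Finset.sum_sub_distrib, hsum,
        ← Finset.mul_sum, ← e1] at e2
      linarith
    have h3 : ∑ i, c i * Real.log (D i (x ⬝ᵥ u i)) = (∑ i, c i * q i (x ⬝ᵥ u i)) - x ⬝ᵥ x / 2 +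
        (∑ i, c i * T i (x ⬝ᵥ u i) ^ 2) / 2 := by
      rw [← hsum x, Finset.sum_div, Finset.sum_div, ← Finset.sum_sub_distrib,
        ← Finset.sum_add_distrib]
      exact Finset.sum_congr rfl fun i _ => by rw [hDl]; ring
    linarith [hlog]
  calc ∫⁻ x : Fin n → ℝ, ENNReal.ofReal (Real.exp (∑ i, c i * q i (x ⬝ᵥ u i) - x ⬝ᵥ x / 2))
      ≤ ∫⁻ x, ENNReal.ofReal |(F' x).det| * ENNReal.ofReal (Real.exp (-(F x ⬝ᵥ F x) / 2)) :=
        lintegral_mono key
    _ = ∫⁻ y in F '' univ, ENNReal.ofReal (Real.exp (-(y ⬝ᵥ y) / 2)) := by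
        rw [lintegral_image_eq_lintegral_abs_det_fderiv_mul volume MeasurableSet.univ
          (fun x _ => (hderiv x).hasFDerivWithinAt) hinj.injOn, setLIntegral_univ]
    _ ≤ ∫⁻ y : Fin n → ℝ, ENNReal.ofReal (Real.exp (-(y ⬝ᵥ y) / 2)) := setLIntegral_le_lintegral _ _
    _ = ENNReal.ofReal (√(2 * π) ^ n) := Facets.lintegral_gauss n

/-- The Gaussian Brascamp–Lieb inequality on Euclidean space. -/
theorem gauss_bl {n N : ℕ} (c : Fin N → ℝ) (u : Fin N → Euc n) (hc : ∀ i, 0 ≤ c i)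
    (hu : ∀ i, ‖u i‖ = 1) (hiso : ∀ x, ∑ i, (c i * ⟪u i, x⟫) • u i = x) (q : Fin N → ℝ → ℝ)
    (hq : ∀ i, Continuous (q i))
    (hq1 : ∀ i, ∫ y, Real.exp (q i y) * gaussianPDFReal 0 1 y = 1) :
    ∫⁻ x : Euc n, ENNReal.ofReal (Real.exp (∑ i, c i * q i ⟪u i, x⟫ - ‖x‖ ^ 2 / 2)) ≤
      ENNReal.ofReal (√(2 * π) ^ n) := by
  have ip : ∀ x y : Euc n, ⟪x, y⟫ = y.ofLp ⬝ᵥ x.ofLp := fun x y => by
    rw [EuclideanSpace.inner_eq_star_dotProduct]; simp
  have hg : Facets.gram c (fun i => (u i).ofLp) = 1 := by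
    refine Matrix.toLin'.injective (LinearMap.ext fun v => ?_)
    rw [Matrix.toLin'_apply, Matrix.toLin'_one, LinearMap.id_apply, gram_mulVec]
    have h := congrArg WithLp.ofLp (hiso (WithLp.toLp 2 v))
    simp only [WithLp.ofLp_sum, WithLp.ofLp_smul, ip] at h
    refine (Finset.sum_congr rfl fun i _ => ?_).trans h
    rw [dotProduct_comm]
  have hu' : ∀ i, (u i).ofLp ⬝ᵥ (u i).ofLp = 1 := fun i => by
    rw [← ip, real_inner_self_eq_norm_sq, hu, one_pow]
  refine le_of_eq_of_le ?_ (gauss_bl_pi c (fun i => (u i).ofLp) hc hu' hg q hq hq1)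
  rw [← (PiLp.volume_preserving_toLp (Fin n)).lintegral_comp_emb
    (MeasurableEquiv.toLp 2 (Fin n → ℝ)).measurableEmbedding]
  refine lintegral_congr fun v => ?_
  rw [← real_inner_self_eq_norm_sq]
  simp only [ip]

end Vale.Agent.P237.Full
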