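import Mathlib

/-!
P237: a field pointing into a compact set has nonpositive mean divergence on it.
-/

namespace Vale.Agent.P237.Full

open MeasureTheory Set Filter Topology Module Matrix
open scoped RealInnerProductSpace

theorem contDiff_det (n : ℕ) :
    ContDiff ℝ 1 fun M : Fin n → Fin n → ℝ => (Matrix.of M).det := by
  simp only [Matrix.det_apply', Matrix.of_apply]
  fun_prop

/-- A field whose short steps stay in a compact set has nonpositive mean trace of derivative. -/
theorem integral_trace_nonpos {n : ℕ} {K : Set (EuclideanSpace ℝ (Fin n))} (cK : IsCompact K)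
    {Y : EuclideanSpace ℝ (Fin n) → EuclideanSpace ℝ (Fin n)} (hY : ContDiff ℝ 1 Y) {ε₀ : ℝ}
    (hε₀ : 0 < ε₀) (hin : ∀ ε ∈ Ioo 0 ε₀, ∀ x ∈ K, x + ε • Y x ∈ K) :
    ∫ x in K, LinearMap.trace ℝ (EuclideanSpace ℝ (Fin n)) (fderiv ℝ Y x : _ →ₗ[ℝ] _) ≤ 0 := by
  set b := (EuclideanSpace.basisFun (Fin n) ℝ).toBasis with hb
  set A : EuclideanSpace ℝ (Fin n) → Fin n → Fin n → ℝ :=
    fun x i j => fderiv ℝ Y x (b j) i with hA
  have hAc : Continuous A := by
    have := hY.continuous_fderiv one_ne_zero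
    simp only [hA]
    fun_prop
  have hmat : ∀ x, LinearMap.toMatrix b b (fderiv ℝ Y x : _ →ₗ[ℝ] _) = Matrix.of (A x) := by
    intro x; ext i j
    simp [hA, hb, LinearMap.toMatrix_apply]
  set d : ℝ → EuclideanSpace ℝ (Fin n) → ℝ :=
    fun ε x => (Matrix.of ((1 : Matrix (Fin n) (Fin n) ℝ) + ε • Matrix.of (A x))).det with hd
  have hdc : ∀ ε, Continuous (d ε) := fun ε => by simp only [hd]; fun_prop
  -- a bound linear in the step
  have cS : IsCompact ((fun p : ℝ × EuclideanSpace ℝ (Fin n) =>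
      ((1 : Matrix (Fin n) (Fin n) ℝ) + p.1 • Matrix.of (A p.2) : Fin n → Fin n → ℝ)) ''
        (Icc 0 1 ×ˢ K)) :=
    (isCompact_Icc.prod cK).image (by fun_prop)
  obtain ⟨L, hL⟩ := LocallyLipschitzOn.exists_lipschitzOnWith_of_compact cS
    (contDiff_det n).locallyLipschitz.locallyLipschitzOn
  obtain ⟨C, hC⟩ := cK.exists_bound_of_continuousOn hAc.continuousOn
  -- injectivity of short steps
  obtain ⟨l, hl⟩ := LocallyLipschitzOn.exists_lipschitzOnWith_of_compact cK
    hY.locallyLipschitz.locallyLipschitzOn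
  set δ := min (min ε₀ 1) (1 / ((l : ℝ) + 1)) with hδ
  have hδ0 : 0 < δ := by positivity
  have key : ∀ ε ∈ Ioo 0 δ, ∫ x in K, (d ε x - 1) / ε ≤ 0 := by
    intro ε hε
    have hε1 : ε < 1 := hε.2.trans_le ((min_le_left _ _).trans (min_le_right _ _))
    have hεl : ε * l < 1 := by
      have h := hε.2.trans_le (min_le_right (min ε₀ 1) (1 / ((l : ℝ) + 1)))
      rw [lt_div_iff₀ (by positivity)] at h
      nlinarith [hε.1]
    set Φ : EuclideanSpace ℝ (Fin n) → EuclideanSpace ℝ (Fin n) := fun x => x + ε • Y x with hΦ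
    have hinj : InjOn Φ K := by
      intro x hx y hy h
      by_contra hne
      have h1 : x - y = ε • (Y y - Y x) := by
        simp only [hΦ] at h
        linear_combination (norm := module) h
      have h2 : ‖x - y‖ ≤ ε * (l * ‖x - y‖) := by
        conv_lhs => rw [h1]
        rw [norm_smul, Real.norm_of_nonneg hε.1.le]
        refine mul_le_mul_of_nonneg_left ?_ hε.1.le
        rw [norm_sub_rev]
        exact hl.norm_sub_le hx hy
      have h3 : 0 < ‖x - y‖ := norm_pos_iff.2 (sub_ne_zero.2 hne)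
      nlinarith
    set Φ' : EuclideanSpace ℝ (Fin n) → EuclideanSpace ℝ (Fin n) →L[ℝ] EuclideanSpace ℝ (Fin n) :=
      fun x => ContinuousLinearMap.id ℝ _ + ε • fderiv ℝ Y x with hΦ'
    have hder : ∀ x, HasFDerivAt Φ (Φ' x) x := fun x =>
      (hasFDerivAt_id x).add ((hY.differentiable one_ne_zero x).hasFDerivAt.const_smul ε)
    have hdet : ∀ x, (Φ' x).det = d ε x := fun x => by
      rw [ContinuousLinearMap.det, ← LinearMap.det_toMatrix b]
      simp only [hΦ', ContinuousLinearMap.toLinearMap_add, ContinuousLinearMap.toLinearMap_smul,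
        ContinuousLinearMap.coe_id, map_add, map_smul, hmat, LinearMap.toMatrix_id, hd]
      rfl
    have hvol : ∫ x in K, |d ε x| ≤ (volume K).toReal := by
      have h1 := lintegral_abs_det_fderiv_eq_addHaar_image volume cK.measurableSet
        (fun x _ => (hder x).hasFDerivWithinAt) hinj
      simp only [hdet] at h1
      rw [integral_eq_lintegral_of_nonneg_ae (Eventually.of_forall fun x => abs_nonneg _)
        (hdc ε).abs.aestronglyMeasurable, h1]
      refine ENNReal.toReal_mono cK.measure_lt_top.ne (measure_mono ?_)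
      rintro _ ⟨x, hx, rfl⟩
      exact hin ε ⟨hε.1, hε.2.trans_le ((min_le_left _ _).trans (min_le_left _ _))⟩ x hx
    have hi := (hdc ε).continuousOn.integrableOn_compact (μ := volume) cK
    rw [integral_div, integral_sub hi (integrableOn_const cK.measure_lt_top.ne),
      setIntegral_const, smul_eq_mul, mul_one, measureReal_def]
    refine div_nonpos_of_nonpos_of_nonneg ?_ hε.1.le
    linarith [setIntegral_mono_on hi hi.abs cK.measurableSet fun x _ => le_abs_self (d ε x)]
  have hev : ∀ᶠ ε in 𝓝[>] (0 : ℝ), ε ∈ Ioo 0 δ := Ioo_mem_nhdsGT hδ0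
  refine le_of_tendsto (tendsto_integral_filter_of_dominated_convergence
    (F := fun ε x => (d ε x - 1) / ε) (fun _ => (L : ℝ) * C) ?_ ?_
    (integrableOn_const cK.measure_lt_top.ne) ?_) (hev.mono key)
  · exact Eventually.of_forall fun ε => (((hdc ε).sub continuous_const).div_const ε).aestronglyMeasurable
  · filter_upwards [hev] with ε hε
    filter_upwards [ae_restrict_mem cK.measurableSet] with x hx
    have hε1 : ε ≤ 1 := hε.2.le.trans ((min_le_left _ _).trans (min_le_right _ _))
    have h := hL.norm_sub_le (x := ((1 : Matrix (Fin n) (Fin n) ℝ) + ε • Matrix.of (A x)))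
      (y := (1 : Matrix (Fin n) (Fin n) ℝ)) ⟨(ε, x), ⟨⟨hε.1.le, hε1⟩, hx⟩, rfl⟩
      ⟨(0, x), ⟨⟨le_rfl, zero_le_one⟩, hx⟩, by simp⟩
    rw [norm_div, Real.norm_of_nonneg hε.1.le, div_le_iff₀ hε.1]
    have e1 : (Matrix.of ((1 : Matrix (Fin n) (Fin n) ℝ) : Fin n → Fin n → ℝ)).det = 1 :=
      Matrix.det_one
    rw [e1] at h
    refine le_trans h (le_trans (le_of_eq ?_) (mul_le_mul_of_nonneg_left
      (mul_le_mul_of_nonneg_left (hC x hx) hε.1.le) L.coe_nonneg) |>.trans (le_of_eq (by ring)))
    rw [← Real.norm_of_nonneg hε.1.le, ← norm_smul, Real.norm_of_nonneg hε.1.le]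
    congr 2
    ext i j
    exact add_sub_cancel_left _ _
  · filter_upwards with x
    have ht : LinearMap.trace ℝ (EuclideanSpace ℝ (Fin n)) (fderiv ℝ Y x : _ →ₗ[ℝ] _) =
        (Matrix.of (A x)).trace := by rw [LinearMap.trace_eq_matrix_trace ℝ b, hmat]
    rw [ht]
    set p := (Matrix.det ((1 : Matrix (Fin n) (Fin n) (Polynomial ℝ)) +
      (Polynomial.X : Polynomial ℝ) • (Matrix.of (A x)).map Polynomial.C)).divX.divX with hp
    have hlim : Tendsto (fun ε : ℝ => (Matrix.of (A x)).trace + p.eval ε * ε) (𝓝[>] 0)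
        (𝓝 ((Matrix.of (A x)).trace + p.eval 0 * 0)) :=
      ((by fun_prop : Continuous fun ε : ℝ => (Matrix.of (A x)).trace + p.eval ε * ε).tendsto 0
        ).mono_left nhdsWithin_le_nhds
    rw [mul_zero, add_zero] at hlim
    refine hlim.congr' ?_
    filter_upwards [hev] with ε hε
    have e : d ε x = ((1 : Matrix (Fin n) (Fin n) ℝ) + ε • Matrix.of (A x)).det := rfl
    rw [e, Matrix.det_one_add_smul, ← hp]
    field_simp [hε.1.ne']
    ring

end Vale.Agent.P237.Full
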