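import Vale.Agent.P237.Full.Data.Entropy

/-!
P237: the averaged logarithmic second-moment datum at the John contacts, the quadratic case of the
entropy datum.
-/

namespace Vale.Agent.P237.Full

open Vale.Agent.P084 MeasureTheory ProbabilityTheory Set
open scoped Real RealInnerProductSpace

/-- `(n + 2)` times the mean square of the axial coordinate on the body. -/
noncomputable def axialMoment {n : ℕ} (K : Set (Euc n)) (u : Euc n) : ℝ :=
  ((n : ℝ) + 2) / (volume K).toReal * ∫ t, t ^ 2 * sect K u t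

theorem axialMoment_eq {n : ℕ} {K : Set (Euc n)} (hK : IsBody K) {u : Euc n} (hu : ‖u‖ = 1) :
    axialMoment K u = ((n : ℝ) + 2) / (volume K).toReal * ∫ x in K, ⟪u, x⟫ ^ 2 := by
  rw [axialMoment, integral_sect_mul hK hu (continuous_pow 2)]

theorem axialMoment_pos {n N : ℕ} {K : Set (Euc n)} {c : Fin N → ℝ} {u : Fin N → Euc n}
    (h : InJohn K c u) (i : Fin N) : 0 < axialMoment K (u i) := by
  rw [axialMoment_eq h.1 (h.2.2.2.2.1 i)]
  obtain ⟨⟨cvK, cK, hint⟩, -, hball, -, hu, -, -, -⟩ := h
  refine mul_pos (div_pos (by positivity) (ENNReal.toReal_pos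
    (Measure.measure_pos_of_nonempty_interior volume hint).ne' cK.measure_lt_top.ne)) ?_
  rw [setIntegral_pos_iff_support_of_nonneg_ae (Filter.Eventually.of_forall fun x => sq_nonneg _)
    ((by fun_prop : Continuous fun x : Euc n => ⟪u i, x⟫ ^ 2).continuousOn.integrableOn_compact cK)]
  have hne : ((Function.support fun x : Euc n => ⟪u i, x⟫ ^ 2) ∩ Metric.ball 0 1).Nonempty := by
    refine ⟨(1 / 2 : ℝ) • u i, ?_, ?_⟩
    · simp [real_inner_smul_right, hu i]
    · simp [norm_smul, hu i]; norm_num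
  refine lt_of_lt_of_le (IsOpen.measure_pos volume ?_ hne) (measure_mono ?_)
  · exact ((by fun_prop : Continuous fun x : Euc n => ⟪u i, x⟫ ^ 2).isOpen_support).inter
      Metric.isOpen_ball
  · exact inter_subset_inter_right _ (Metric.ball_subset_closedBall.trans hball)

/-- The entropy datum against centred Gaussian tests of arbitrary widths `σ i`. -/
theorem variance_datum {n N : ℕ} {K : Set (Euc n)} {c : Fin N → ℝ} {u : Fin N → Euc n}
    (h : InJohn K c u) {σ : Fin N → ℝ} (hσ : ∀ i, 0 < σ i) :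
    Real.log ((volume K).toReal / kappa n) ≤
      ∑ i, c i * (Real.log (σ i) + axialMoment K (u i) / (2 * σ i ^ 2) - 1 / 2) := by
  set V := (volume K).toReal with hV
  set a : Fin N → ℝ := fun i => (1 - 1 / σ i ^ 2) / 2 with ha
  have hq1 : ∀ i, ∫ y, Real.exp (a i * y ^ 2 - Real.log (σ i)) * gaussianPDFReal 0 1 y = 1 := by
    intro i
    have e : ∀ y, Real.exp (a i * y ^ 2 - Real.log (σ i)) * gaussianPDFReal 0 1 y =
        (σ i * √(2 * π))⁻¹ * Real.exp (-(1 / (2 * σ i ^ 2)) * y ^ 2) := fun y => by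
      simp only [gaussianPDFReal, NNReal.coe_one, mul_one, sub_zero]
      rw [Real.exp_sub, Real.exp_log (hσ i), mul_inv,
        show -(1 / (2 * σ i ^ 2)) * y ^ 2 = a i * y ^ 2 + -y ^ 2 / 2 by simp only [ha]; ring,
        Real.exp_add]
      ring
    simp only [e]
    rw [integral_const_mul, integral_gaussian,
      show π / (1 / (2 * σ i ^ 2)) = σ i ^ 2 * (2 * π) by field_simp,
      Real.sqrt_mul (sq_nonneg _), Real.sqrt_sq (hσ i).le]
    have := hσ i
    field_simp
  have hb : ∀ i, ∃ C, ∀ y, |a i * y ^ 2 - Real.log (σ i)| ≤ C * (1 + y ^ 2) := fun i =>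
    ⟨|a i| + |Real.log (σ i)|, fun y => by
      refine (abs_sub _ _).trans ?_
      rw [abs_mul, abs_of_nonneg (sq_nonneg y)]
      nlinarith [abs_nonneg (a i), abs_nonneg (Real.log (σ i)), sq_nonneg y]⟩
  have key := entropy_datum h (fun i y => a i * y ^ 2 - Real.log (σ i)) (fun i => by fun_prop) hb
    hq1
  obtain ⟨hK, -, -, -, hu, hcn, hiso, -⟩ := h
  have hV0 : 0 < V := ENNReal.toReal_pos
    (Measure.measure_pos_of_nonempty_interior volume hK.2.2).ne' hK.2.1.measure_lt_top.ne
  have hin : ∀ i, (∫ t, (∫ s in Ioi (0 : ℝ), lift n s * (a i * (s * t) ^ 2 - Real.log (σ i))) *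
      sect K (u i) t) / V = a i * axialMoment K (u i) - Real.log (σ i) := by
    intro i
    have hZ : 0 < ∫ r in Ioi (0 : ℝ), r ^ (n + 1) * Real.exp (-r ^ 2 / 2) := by
      rw [integral_half_gauss]
      exact mul_pos (by positivity) (Real.Gamma_pos_of_pos (by positivity))
    have hJ : ∫ s in Ioi (0 : ℝ), s ^ (n + 3) * Real.exp (-s ^ 2 / 2) =
        ((n : ℝ) + 2) * ∫ r in Ioi (0 : ℝ), r ^ (n + 1) * Real.exp (-r ^ 2 / 2) := by
      rw [show n + 3 = n + 2 + 1 by rfl, integral_half_gauss, integral_half_gauss, pow_add,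
        Real.sq_sqrt (by norm_num), Nat.cast_add,
        show ((n : ℝ) + (2 : ℕ)) / 2 + 1 = ((n : ℝ) / 2 + 1) + 1 by push_cast; ring,
        Real.Gamma_add_one (by positivity)]
      ring
    have hinner : ∀ t, ∫ s in Ioi (0 : ℝ), lift n s * (a i * (s * t) ^ 2 - Real.log (σ i)) =
        a i * ((n : ℝ) + 2) * t ^ 2 - Real.log (σ i) := by
      intro t
      set Z := ∫ r in Ioi (0 : ℝ), r ^ (n + 1) * Real.exp (-r ^ 2 / 2) with hZd
      have e : ∀ s : ℝ, lift n s * (a i * (s * t) ^ 2 - Real.log (σ i)) =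
          a i * t ^ 2 / Z * (s ^ (n + 3) * Real.exp (-s ^ 2 / 2)) -
            Real.log (σ i) / Z * (s ^ (n + 1) * Real.exp (-s ^ 2 / 2)) := fun s => by
        simp only [lift, ← hZd]; ring
      simp only [e]
      rw [integral_sub ((integrableOn_half_gauss (n + 3)).const_mul _)
        ((integrableOn_half_gauss (n + 1)).const_mul _), integral_const_mul, integral_const_mul,
        hJ, ← hZd]
      field_simp
    simp only [hinner]
    rw [integral_sect_mul hK (hu i) (by fun_prop), axialMoment_eq hK (hu i),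
      integral_sub (((by fun_prop : Continuous fun x : Euc n =>
        a i * ((n : ℝ) + 2) * ⟪u i, x⟫ ^ 2)).continuousOn.integrableOn_compact hK.2.1)
        (integrableOn_const hK.2.1.measure_lt_top.ne : IntegrableOn
          (fun _ => Real.log (σ i)) K volume),
      integral_const_mul, setIntegral_const, smul_eq_mul, measureReal_def, ← hV]
    field_simp
  have hsum : ∑ i, c i * axialMoment K (u i) = ((n : ℝ) + 2) / V * ∫ x in K, ‖x‖ ^ 2 := by
    rw [Finset.sum_congr rfl fun i _ => by rw [axialMoment_eq hK (hu i), ← mul_assoc,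
      mul_comm (c i), mul_assoc], ← Finset.mul_sum, ← hV]
    congr 1
    simp only [← integral_const_mul]
    rw [← integral_finsetSum _ fun i _ => ((by fun_prop : Continuous fun x : Euc n =>
      c i * ⟪u i, x⟫ ^ 2)).continuousOn.integrableOn_compact hK.2.1]
    refine integral_congr_ae (Filter.Eventually.of_forall fun x => ?_)
    dsimp only
    calc ∑ i, c i * ⟪u i, x⟫ ^ 2 = ⟪∑ i, (c i * ⟪u i, x⟫) • u i, x⟫ := by
          rw [sum_inner]
          exact Finset.sum_congr rfl fun i _ => by rw [real_inner_smul_left]; ring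
      _ = ‖x‖ ^ 2 := by rw [hiso x, real_inner_self_eq_norm_sq]
  simp only [← hV, hin] at key
  have e : ∑ i, c i * (Real.log (σ i) + axialMoment K (u i) / (2 * σ i ^ 2) - 1 / 2) =
      -(∑ i, c i * (a i * axialMoment K (u i) - Real.log (σ i))) +
        (∑ i, c i * axialMoment K (u i)) / 2 - (n : ℝ) / 2 := by
    rw [← hcn, Finset.sum_div, Finset.sum_div, ← Finset.sum_neg_distrib, ← Finset.sum_add_distrib,
      ← Finset.sum_sub_distrib]
    exact Finset.sum_congr rfl fun i _ => by simp only [ha]; ring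
  rw [e, hsum]
  linarith

/-- The logarithmic second-moment datum: the widths chosen best. -/
theorem log_variance_datum {n N : ℕ} {K : Set (Euc n)} {c : Fin N → ℝ} {u : Fin N → Euc n}
    (h : InJohn K c u) :
    Real.log ((volume K).toReal / kappa n) ≤
      ∑ i, c i * (Real.log (axialMoment K (u i)) / 2) := by
  refine le_of_le_of_eq (variance_datum h (σ := fun i => √(axialMoment K (u i)))
    fun i => Real.sqrt_pos.2 (axialMoment_pos h i)) (Finset.sum_congr rfl fun i _ => ?_)
  have hW := axialMoment_pos h i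
  rw [Real.log_sqrt hW.le, Real.sq_sqrt hW.le]
  field_simp
  ring

end Vale.Agent.P237.Full
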